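import Vale.Agent.P011UHU.Ex
import Vale.Agent.P011UGA.IF3
import Vale.Agent.P011UC.Rat
import Vale.Agent.P011UH.Cl

/-!
The algebraic hull of an element of the Lie algebra.
-/

set_option autoImplicit false
set_option linter.all false

namespace Vale.Agent.P011UHU

open Polynomial Finset Matrix Vale.Agent.P183CH Vale.Agent.P183CH.Chev Vale.Agent.P011U
  Vale.Agent.P011UH Vale.Agent.P011UGA

variable {K : Type} [Field K] {D : Chev}

/-- the left invariant derivation -/
noncomputable def dX (X : D.Mat K) (p : MvPolynomial (Fin D.n × Fin D.n) K) :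
    MvPolynomial (Fin D.n × Fin D.n) K :=
  ∑ e, MvPolynomial.pderiv e p * (gx (Fin D.n) K * X.map (algebraMap K _) : D.Mat _) e.1 e.2

theorem ev_dX {L : Type} [CommRing L] [Algebra K L] (M : D.Mat L) (X : D.Mat K) (p) :
    ev K M (dX X p) = ∑ e, ev K M (MvPolynomial.pderiv e p) * (M * X.map (algebraMap K L)) e.1 e.2 := by
  rw [dX, map_sum, ← (ev_mul X M).1]
  exact sum_congr rfl fun e _ => map_mul _ _ _

theorem dX_van [Infinite K] {X : D.Mat K} (hX : X ∈ lg D K) {p}
    (hp : ∀ g : D.grp K, ev K g.1.1 p = 0) (g : D.grp K) : ev K g.1.1 (dX X p) = 0 := by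
  rw [ev_dX]
  replace hX := P011UC.lie_TV hX
  show ∑ e : Fin D.n × Fin D.n, _ * (g.1.1 * X) e.1 e.2 = 0
  induction hX using Submodule.span_induction with
  | zero => simp
  | add v w _ _ h1 h2 => simp only [mul_add, Matrix.add_apply, sum_add_distrib, h1, h2, add_zero]
  | smul c v _ h1 =>
    simp only [Matrix.mul_smul, Matrix.smul_apply, mul_smul_comm, ← smul_sum, h1, smul_zero]
  | mem X hx =>
    obtain ⟨x, x0, hx⟩ := hx
    choose q h1 h2 using hx
    let M : D.Mat K[X] := g.1.1.map C * of q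
    have e : ∀ t, M.map (aeval t : K[X] →ₐ[K] K) = (g * x t).1.1 := fun t => by
      ext a b
      simp [M, Matrix.mul_apply, h1, eval_finset_sum]
    have e0 : ev K M p = 0 := Polynomial.funext fun t => by
      rw [← coe_aeval_eq_eval, ← ev_map, e, hp, map_zero]
    have := congrArg (aeval (0 : K)) (P011UJ.der_aeval Polynomial.derivative'
      (fun e : Fin D.n × Fin D.n => M e.1 e.2) p)
    rw [P011UH.ev] at e0
    rw [e0, map_zero, map_zero, map_sum] at this
    refine Eq.trans (sum_congr rfl fun a _ => ?_) this.symm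
    rw [smul_eq_mul, map_mul]
    congr 1
    · have := e 0
      rw [x0, mul_one] at this
      rw [← this, ev_map]
      rfl
    · simp [M, Matrix.mul_apply, h2, eval_finset_sum, ← coeff_zero_eq_eval_zero, coeff_derivative]

variable [CharZero K] {X N : D.Mat K} {s : Finset K} {e : K → D.Mat K}

theorem hull (hD : SC D) (hX : X ∈ lg D K) (h : JD X s e N) {b : ℕ} (hb : N ^ (b + 1) = 0) (c : K)
    (χ : Multiplicative K →* K) : ∃ g : D.grp K, g.1.1 = ∑ a ∈ s, ∑ i ∈ range (b + 1),
      (c ^ i / i.factorial * χ (.ofAdd a)) • (e a * N ^ i) := by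
  let ι : D.Mat K →ₐ[K] D.Mat (EP K) := (Algebra.ofId K (EP K)).mapMatrix
  let w : K → ℕ → EP K := fun a i => .single a (monomial i (1 / i.factorial))
  let M : D.Mat (EP K) := ∑ a ∈ s, ∑ i ∈ range (b + 1), w a i • ι (e a * N ^ i)
  have iv : ∀ Z u v, ι Z u v = algebraMap K (EP K) (Z u v) := fun _ _ _ => rfl
  have e1 : ∀ c χ, M.map (sp c χ) = ∑ a ∈ s, ∑ i ∈ range (b + 1),
      (c ^ i / i.factorial * χ (.ofAdd a)) • (e a * N ^ i) := fun c χ => by
    ext u v
    simp only [M, map_apply, Matrix.sum_apply, Matrix.smul_apply, smul_eq_mul, map_sum, iv]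
    simp only [map_mul, w, sp_single, eval_monomial, AlgHom.commutes,
      Algebra.algebraMap_self_apply, one_div_mul_eq_div]
  have w0 : ∀ a, dd (w a 0) = a • w a 0 := fun a => (dl_single _ _).trans (by simp [dq, w])
  have w1 : ∀ a i, dd (w a (i + 1)) = w a i + a • w a (i + 1) := fun a i =>
    (dl_single _ _).trans (by
      simp only [dq, w, LinearMap.add_apply, LinearMap.smul_apply, Module.End.one_apply,
        AddMonoidAlgebra.single_add, AddMonoidAlgebra.smul_single, derivative_monomial_succ]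
      rw [Nat.factorial_succ, Nat.cast_mul, Nat.cast_succ, one_div, mul_inv, mul_right_comm,
        inv_mul_cancel₀ (Nat.cast_add_one_ne_zero i), one_mul, one_div])
  have cN : Commute X N := Algebra.commute_of_mem_adjoin_self h.mn
  have e2 : M.map dd = M * ι X := by
    have a1 : M.map dd = ∑ a ∈ s, ∑ i ∈ range (b + 1), dd (w a i) • ι (e a * N ^ i) := by
      ext u v : 1
      simp only [M, map_apply, Matrix.sum_apply, Matrix.smul_apply, smul_eq_mul, map_sum,
        Derivation.leibniz, iv, Derivation.map_algebraMap, mul_zero, zero_add]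
      simp only [mul_comm]
    rw [a1, sum_mul]
    refine sum_congr rfl fun a ha => ?_
    have a2 : ∀ i, w a i • ι (e a * N ^ i) * ι X =
        (a • w a i) • ι (e a * N ^ i) + w a i • ι (e a * N ^ (i + 1)) := fun i => by
      rw [smul_mul_assoc, ← map_mul, mul_assoc, ← (cN.pow_right i).eq, ← mul_assoc, h.mul a ha,
        add_mul, smul_mul_assoc, mul_assoc, ← pow_succ', map_add, map_smul, smul_add, smul_comm,
        smul_assoc]
    simp only [sum_mul, a2, sum_add_distrib]
    rw [sum_range_succ (fun i => w a i • ι (e a * N ^ (i + 1))), hb, mul_zero, map_zero, smul_zero,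
      add_zero, sum_range_succ', sum_range_succ' (fun i => (a • w a i) • ι (e a * N ^ i)), w0]
    simp only [w1, add_smul, sum_add_distrib]
    abel
  have e3 : ∀ p, dl (ev K M p) = ev K M (dX X p) := fun p => by
    rw [ev_dX]
    refine (P011UJ.der_aeval dd (fun e : Fin D.n × Fin D.n => M e.1 e.2) p).trans
      (sum_congr rfl fun a _ => congrArg (_ * ·) (congrFun₂ e2 a.1 a.2))
  have e4 : M.map (sp 0 1) = (1 : D.grp K).1.1 := by
    rw [e1]
    refine Eq.trans (sum_congr rfl fun a _ => ?_) h.sum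
    simp [sum_range_succ']
  have z : Zc K M := fun p hp => ep_inj fun i => by
    induction i generalizing p with
    | zero => exact (ev_map _ M p).symm.trans (e4 ▸ hp 1)
    | succ i ih => rw [pow_succ, Module.End.mul_apply, e3]; exact ih _ (dX_van hX hp)
  refine Zc.mem hD fun p hp => ?_
  rw [← e1, ev_map, z p hp, map_zero]

omit [CharZero K]

theorem JD.com (h : JD X s e N) {Y M : D.Mat K} (hY : Y ∈ Algebra.adjoin K {X}) (c : Commute M X) :
    Commute M Y := Algebra.commute_of_mem_adjoin_singleton_of_commute hY c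

theorem ad_nil (h : IsNilpotent N) : IsNilpotent (adM N) :=
  (LinearMap.commute_mulLeft_right N N).isNilpotent_sub (h.map (Algebra.lmul K _))
    ((LinearMap.isNilpotent_mulRight_iff _ _).2 h)

theorem JD.cmp (h : JD X s e N) {a b : K} (ha : a ∈ s) (hb : b ∈ s) (μ : K) (Z : D.Mat K) :
    e a * (adM X - algebraMap K _ μ) Z * e b =
      (adM N + algebraMap K _ (a - b - μ)) (e a * Z * e b) := by
  have c1 := (h.com (h.me b) rfl).eq
  have c2 := (h.com (h.me a) (h.com h.mn rfl).symm).eq
  simp only [adM, LinearMap.sub_apply, LinearMap.add_apply, LinearMap.mulLeft_apply,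
    LinearMap.mulRight_apply, Module.algebraMap_end_apply, mul_sub, sub_mul]
  rw [← mul_assoc, h.mul a ha, mul_assoc _ (Z * X), mul_assoc Z, c1, h.mul b hb, ← mul_assoc N,
    ← mul_assoc N, c2]
  simp only [mul_add, add_mul, mul_smul_comm, smul_mul_assoc, sub_smul, mul_assoc]
  abel

theorem JD.van (h : JD X s e N) {a b μ : K} (ha : a ∈ s) (hb : b ∈ s) {Y : D.Mat K}
    (hY : Y ∈ Ge X μ) : a = μ + b ∨ e a * Y * e b = 0 := by
  refine or_iff_not_imp_left.2 fun c => ?_
  obtain ⟨k, hk⟩ := (Module.End.mem_maxGenEigenspace _ _ _).1 hY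
  have u := ((ad_nil h.nil).isUnit_add_right_of_commute ((IsUnit.mk0 (a - b - μ) fun z =>
    c (by linear_combination z)).map (algebraMap K _)) (Algebra.commutes _ _).symm).pow k
  have i : ∀ k : ℕ, e a * ((adM X - algebraMap K _ μ) ^ k) Y * e b =
      ((adM N + algebraMap K _ (a - b - μ)) ^ k) (e a * Y * e b) := fun k => by
    induction k with
    | zero => rfl
    | succ k ih => rw [pow_succ', pow_succ', Module.End.mul_apply, Module.End.mul_apply, h.cmp ha hb, ih]
  refine ((Module.End.isUnit_iff _).1 u).1 ?_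
  rw [← i, Algebra.algebraMap_eq_smul_one, hk, mul_zero, zero_mul, map_zero]

theorem JD.dec (h : JD X s e N) (Y : D.Mat K) : ∑ a ∈ s, ∑ b ∈ s, e a * Y * e b = Y := by
  simp only [← mul_sum, ← sum_mul, h.sum, mul_one, one_mul]

theorem hul1 : HUL1 := by
  intro D hD K _ _ _ X hX χ
  obtain ⟨s, e, N, h⟩ := exists_jd (K := K) X
  obtain ⟨b, hb⟩ := h.nil
  obtain ⟨t, ht⟩ := hull hD hX h (pow_eq_zero_of_le b.le_succ hb) 0 ((Units.coeHom K).comp χ)
  replace ht : t.1.1 = ∑ a ∈ s, (χ (.ofAdd a) : K) • e a :=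
    ht.trans (sum_congr rfl fun a _ => by simp [sum_range_succ'])
  refine ⟨t, fun M c => ht ▸ h.com (sum_mem fun a _ => Subalgebra.smul_mem _ (h.me a) _) c,
    fun μ Y hY => ?_⟩
  have : t.1.1 * Y = (χ (.ofAdd μ) : K) • Y * t.1.1 := by
    rw [← mul_one (t.1.1 * Y), ← one_mul (_ • Y), ← h.sum, ht]
    simp only [sum_mul, mul_sum, smul_mul_assoc, mul_smul_comm, smul_sum, smul_smul]
    refine sum_congr rfl fun b hb => sum_congr rfl fun a ha => ?_
    rcases h.van ha hb hY with c | c
    · rw [c, ofAdd_add, map_mul, Units.val_mul, mul_comm (χ _ : K)]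
    · rw [c, smul_zero, smul_zero]
  rw [Ad_apply, this, Units.mul_inv_cancel_right]

theorem ex_eq [CharZero K] {A : Type} [Ring A] [Algebra K A] [Module ℚ A] {a : A} {b : ℕ}
    (h : a ^ b = 0) (c : K) :
    IsNilpotent.exp (c • a) = ∑ i ∈ range b, (c ^ i / (i.factorial : K)) • a ^ i := by
  rw [IsNilpotent.exp_eq_sum (k := b) (by rw [_root_.smul_pow, h, smul_zero])]
  exact sum_congr rfl fun i _ => by
    rw [inv_natCast_smul_eq ℚ K, _root_.smul_pow, smul_smul, div_eq_inv_mul]

theorem hul2 : HUL2 := by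
  intro D hD K _ _ _ X hX
  obtain ⟨s, e, N, h⟩ := exists_jd (K := K) X
  obtain ⟨b, hb⟩ := h.nil
  obtain ⟨k, hk⟩ := ad_nil h.nil
  have hg : ∀ c : Multiplicative K, ∃ g : D.grp K, g.1.1 = IsNilpotent.exp (c.toAdd • N) := fun c => by
    have b1 := pow_eq_zero_of_le b.le_succ hb
    obtain ⟨g, hg⟩ := hull hD hX h b1 c.toAdd 1
    refine ⟨g, hg.trans ?_⟩
    rw [ex_eq b1, sum_comm]
    simp only [MonoidHom.one_apply, mul_one, ← smul_sum, ← sum_mul, h.sum, one_mul]
  choose u hu using hg
  have cm : ∀ {A : Type} [Ring A] [Algebra K A] [Module ℚ A] {x y : A} (c d : K), Commute x y →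
      IsNilpotent x → IsNilpotent y →
      IsNilpotent.exp (c • x + d • y) = IsNilpotent.exp (c • x) * IsNilpotent.exp (d • y) :=
    fun c d a p q => IsNilpotent.exp_add_of_commute ((a.smul_left c).smul_right d) (p.smul c)
      (q.smul d)
  let u' : Multiplicative K →* D.grp K := MonoidHom.mk' u fun c d => Subtype.ext (Units.ext (by
    rw [Subgroup.coe_mul, Units.val_mul, hu, hu, hu, toAdd_mul, add_smul, cm _ _ rfl h.nil h.nil]))
  refine ⟨N, fun μ Y hY => ?_, k + 2, u', by omega, fun c => ⟨fun M a => ?_, fun Y => ?_⟩⟩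
  · rw [← h.dec (adM X Y - μ • Y)]
    conv_lhs => rw [← h.dec Y]
    simp only [map_sum]
    refine sum_congr rfl fun a ha => sum_congr rfl fun b hb => ((h.cmp ha hb μ Y).trans ?_).symm
    rcases h.van ha hb hY with c | c
    · rw [c, add_sub_cancel_right, sub_self, map_zero, add_zero]
    · rw [c, map_zero, map_zero]
  · rw [show (u' (.ofAdd c)).1.1 = IsNilpotent.exp (c • N) from hu _, ex_eq hb]
    exact h.com (sum_mem fun i _ => Subalgebra.smul_mem _ (pow_mem h.mn i) _) a
  have i : (u' (.ofAdd c)).1⁻¹.1 = IsNilpotent.exp (-c • N) := by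
    rw [← Subgroup.coe_inv, ← map_inv]
    exact hu _
  have l : LinearMap.mulLeft K N ^ b = 0 := by rw [LinearMap.pow_mulLeft, hb, LinearMap.mulLeft_zero_eq_zero]
  have r : LinearMap.mulRight K N ^ b = 0 := by
    rw [LinearMap.pow_mulRight, hb, LinearMap.mulRight_zero_eq_zero]
  have := cm c (-c) (LinearMap.commute_mulLeft_right N N) ⟨b, l⟩ ⟨b, r⟩
  rw [neg_smul, ← sub_eq_add_neg, ← smul_sub, ← neg_smul, ex_eq l, ex_eq r, ← adM,
    ex_eq (a := adM N) (pow_eq_zero_of_le (k.le_add_right 2) hk)] at this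
  have := LinearMap.congr_fun this Y
  simp only [LinearMap.sum_apply, LinearMap.smul_apply, Module.End.mul_apply, LinearMap.pow_mulLeft,
    LinearMap.pow_mulRight, LinearMap.mulLeft_apply, LinearMap.mulRight_apply] at this
  rw [this, Ad_apply, i, show (u' (.ofAdd c)).1.1 = IsNilpotent.exp (c • N) from hu _, ex_eq hb,
    ex_eq hb, mul_assoc, sum_mul, mul_sum]
  simp only [smul_mul_assoc, mul_smul_comm]

end Vale.Agent.P011UHU
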