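import Mathlib

/-!
Exponential polynomials and the Jordan decomposition.
-/

set_option autoImplicit false
set_option linter.all false

namespace Vale.Agent.P011UHU

open Polynomial Finset

variable {K : Type} [Field K]

variable (K) in
/-- exponential polynomials -/
abbrev EP := AddMonoidAlgebra K[X] K

/-- the derivative of `q e ^ (μ t)` -/
noncomputable def dq (μ : K) : Module.End K K[X] := derivative + μ • 1

/-- the derivative as a linear map -/
noncomputable def dl : Module.End K (EP K) where
  toFun y := .ofCoeff (Finsupp.onFinset y.coeff.support (fun μ => dq μ (y.coeff μ)) fun μ h =>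
    Finsupp.mem_support_iff.2 fun e => h (by rw [e, map_zero]))
  map_add' x y := AddMonoidAlgebra.coeff_injective (Finsupp.ext fun μ => map_add (dq μ) _ _)
  map_smul' c x := AddMonoidAlgebra.coeff_injective (Finsupp.ext fun μ => map_smul (dq μ) _ _)

theorem dl_coeff (y : EP K) (μ : K) : (dl y).coeff μ = dq μ (y.coeff μ) := rfl

theorem dl_single (μ : K) (q : K[X]) : dl (.single μ q : EP K) = .single μ (dq μ q) := by
  classical
  refine AddMonoidAlgebra.coeff_injective (Finsupp.ext fun ν => ?_)
  rw [dl_coeff, AddMonoidAlgebra.coeff_single, AddMonoidAlgebra.coeff_single, Finsupp.single_apply,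
    Finsupp.single_apply]
  split_ifs with h
  · rw [h]
  · exact map_zero _

/-- the derivative -/
noncomputable def dd : Derivation K (EP K) (EP K) := Derivation.mk' dl fun a b => by
  induction a using AddMonoidAlgebra.induction_linear with
  | zero => simp
  | add x y hx hy => simp only [add_mul, map_add, hx, hy, smul_eq_mul, mul_add]; ring
  | single μ p =>
    induction b using AddMonoidAlgebra.induction_linear with
    | zero => simp
    | add x y hx hy => simp only [add_mul, map_add, hx, hy, smul_eq_mul, mul_add]; ring
    | single ν q =>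
      simp only [smul_eq_mul, AddMonoidAlgebra.single_mul_single, dl_single, add_comm ν μ,
        ← AddMonoidAlgebra.single_add]
      congr 1
      simp only [dq, LinearMap.add_apply, LinearMap.smul_apply, Module.End.one_apply,
        derivative_mul, smul_eq_C_mul, map_add]
      ring

/-- specialisation -/
noncomputable def sp (c : K) (χ : Multiplicative K →* K) : EP K →ₐ[K] K :=
  AddMonoidAlgebra.liftNCAlgHom (aeval c) χ fun _ _ => Commute.all _ _

theorem sp_single (c : K) (χ : Multiplicative K →* K) (μ : K) (q : K[X]) :
    sp c χ (.single μ q) = q.eval c * χ (.ofAdd μ) := by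
  simp [sp]

theorem dq_inj {δ : K} (h : δ ≠ 0) : Function.Injective (dq δ) :=
  (injective_iff_map_eq_zero _).2 fun q e => by
    by_contra q0
    have e' : δ • q = -derivative q := eq_neg_of_add_eq_zero_right e
    have := degree_derivative_lt q0
    rw [← degree_neg, ← e', smul_eq_C_mul, degree_C_mul h] at this
    exact lt_irrefl _ this

/-- the shifted derivative -/
noncomputable def da (a : K) : Module.End K (EP K) := dl - a • 1

/-- Exponential polynomials are determined by their derivatives at the origin. -/
theorem ep_inj [CharZero K] {y : EP K} (h : ∀ i, sp (0 : K) 1 ((dl (K := K) ^ i) y) = 0) : y = 0 := by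
  classical
  have co : ∀ (a : K) (m : ℕ) (y : EP K) μ,
      ((da a ^ m) y).coeff μ = (dq (μ - a) ^ m) (y.coeff μ) := fun a m y μ => by
    induction m with
    | zero => rfl
    | succ m ih =>
      rw [pow_succ', pow_succ', Module.End.mul_apply, Module.End.mul_apply, ← ih]
      simp [da, dl_coeff, dq, sub_smul, add_sub_assoc]
  have st : ∀ (a : K) (m : ℕ) (y : EP K), (∀ i, sp (0 : K) 1 ((dl (K := K) ^ i) y) = 0) →
      ∀ i, sp (0 : K) 1 ((dl (K := K) ^ i) ((da a ^ m) y)) = 0 := fun a m y h => by
    induction m with
    | zero => exact h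
    | succ m ih =>
      intro i
      have := ih (i + 1)
      rw [pow_succ, Module.End.mul_apply] at this
      rw [pow_succ', Module.End.mul_apply, da, LinearMap.sub_apply, map_sub, map_sub, ← da, this,
        LinearMap.smul_apply, map_smul, map_smul, Module.End.one_apply, ih, smul_zero, sub_zero]
  have d0 : dq (0 : K) = derivative := by simp [dq]
  generalize hs : y.coeff.support = s
  replace hs := hs.le
  induction s using Finset.induction_on generalizing y with
  | empty => exact AddMonoidAlgebra.coeff_eq_zero.1 (Finsupp.support_eq_empty.1 (subset_empty.1 hs))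
  | insert a s _ ih =>
    have e := ih (st a ((y.coeff a).natDegree + 1) y h) fun μ m => by
      rw [Finsupp.mem_support_iff, co] at m
      refine (mem_insert.1 (hs (Finsupp.mem_support_iff.2 fun e => m (by rw [e, map_zero])))).resolve_left ?_
      rintro rfl
      rw [sub_self, d0, Module.End.pow_apply] at m
      exact m (iterate_derivative_eq_zero (Nat.lt_succ_self _))
    have e1 : y = .single a (y.coeff a) := AddMonoidAlgebra.coeff_injective (Finsupp.ext fun μ => by
      rw [AddMonoidAlgebra.coeff_single, Finsupp.single_apply]
      split_ifs with c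
      · rw [c]
      · have := co a ((y.coeff a).natDegree + 1) y μ
        rw [e, Module.End.pow_apply] at this
        exact ((dq_inj (sub_ne_zero.2 (Ne.symm c))).iterate _) (this.symm.trans (by
          rw [← Module.End.pow_apply, map_zero]; rfl)))
    have e2 : ∀ m, (da a ^ m) y = .single a (derivative^[m] (y.coeff a)) := fun m =>
      AddMonoidAlgebra.coeff_injective (Finsupp.ext fun μ => by
        rw [co, AddMonoidAlgebra.coeff_single, Finsupp.single_apply]
        split_ifs with c
        · rw [← c, sub_self, d0, Module.End.pow_apply]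
        · rw [e1, AddMonoidAlgebra.coeff_single, Finsupp.single_apply, if_neg c, map_zero])
    rw [e1, AddMonoidAlgebra.single_eq_zero]
    ext m
    have := st a m y h 0
    rw [e2, pow_zero, Module.End.one_apply, sp_single, MonoidHom.one_apply, mul_one,
      ← coeff_zero_eq_eval_zero, coeff_iterate_derivative, zero_add, Nat.descFactorial_self,
      smul_eq_zero] at this
    exact this.resolve_left m.factorial_ne_zero

/-- The Jordan decomposition. -/
structure JD {A : Type} [Ring A] [Algebra K A] (x : A) (s : Finset K) (e : K → A) (n : A) :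
    Prop where
  me : ∀ a, e a ∈ Algebra.adjoin K {x}
  mn : n ∈ Algebra.adjoin K {x}
  nil : IsNilpotent n
  sum : ∑ a ∈ s, e a = 1
  mul : ∀ a ∈ s, e a * x = a • e a + e a * n

theorem exists_jd [IsAlgClosed K] {A : Type} [Ring A] [Algebra K A] [Module.Finite K A] (x : A) :
    ∃ s e n, JD (K := K) x s e n := by
  classical
  obtain ⟨g, k, sq, -, nil⟩ := exists_squarefree_dvd_pow_of_ne_zero (minpoly.ne_zero_of_finite K x)
  have sep : g.Separable := PerfectField.separable_iff_squarefree.2 sq
  let y : Algebra.adjoin K {x} := ⟨x, Algebra.self_mem_adjoin_singleton K x⟩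
  have n1 : aeval y (g ^ k) = 0 := by
    obtain ⟨q, hq⟩ := nil
    rw [Subtype.ext_iff]
    simp [y, hq]
  have n2 : IsUnit (aeval y (derivative g)) := by
    obtain ⟨a, b, h⟩ : IsCoprime (g ^ k) (derivative g) := sep.pow_left
    refine .of_mul_eq_one_right (aeval y b) ?_
    simpa only [map_add, map_mul, map_one, n1, mul_zero, zero_add] using (aeval y).congr_arg h
  obtain ⟨r, ⟨h1, h2⟩, -⟩ := existsUnique_nilpotent_sub_and_aeval_eq_zero ⟨k, map_pow (aeval y) g k ▸ n1⟩ n2
  let s := g.roots.toFinset
  have e1 : aeval r (Lagrange.nodal s id) = 0 := by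
    have := (IsAlgClosed.splits g).eq_prod_roots
    rw [this, map_mul, aeval_C] at h2
    have u := (IsUnit.mk0 _ (leadingCoeff_ne_zero.2 sq.ne_zero)).map
      (algebraMap K (Algebra.adjoin K {x}))
    rw [u.mul_right_eq_zero] at h2
    rw [← h2, Lagrange.nodal, Finset.prod, Multiset.toFinset_val,
      Multiset.dedup_eq_self.2 (nodup_roots sep)]
    rfl
  rcases s.eq_empty_or_nonempty with e | e
  · rw [e, Lagrange.nodal_empty, map_one] at e1
    have : (1 : A) = 0 := congrArg Subtype.val e1
    have := subsingleton_of_zero_eq_one this.symm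
    exact ⟨∅, 0, 0, fun _ => zero_mem _, zero_mem _, .zero, Subsingleton.elim _ _, nofun⟩
  refine ⟨s, fun a => (aeval r (Lagrange.basis s id a)).1, (y - r).1, fun _ => Subtype.mem _,
    Subtype.mem _, h1.map (Algebra.adjoin K {x}).val, ?_, fun a ha => ?_⟩
  · rw [← AddSubmonoidClass.coe_finsetSum, ← map_sum, Lagrange.sum_basis (Set.injOn_id _) e, map_one]
    rfl
  · have : aeval r (Lagrange.basis s id a) * (r - algebraMap K _ a) = 0 := by
      have := congrArg (aeval r) (Lagrange.nodal_eq_mul_nodal_erase (v := id) ha)
      rw [e1, map_mul, map_sub, aeval_X, aeval_C] at this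
      rw [Lagrange.basis_eq_prod_sub_inv_mul_nodal_div ha, ← Lagrange.nodal_erase_eq_nodal_div ha,
        map_mul, mul_assoc, mul_comm _ (r - _)]
      exact mul_eq_zero_of_right _ this.symm
    refine congrArg Subtype.val (show aeval r (Lagrange.basis s id a) * y =
      a • aeval r (Lagrange.basis s id a) + aeval r (Lagrange.basis s id a) * (y - r) from ?_)
    rw [Algebra.smul_def]
    linear_combination this

end Vale.Agent.P011UHU
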